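import Vale.Agent.P011Z.Defs

/-!
Estimates for matrices over an ultrametric field, and an elementary logarithm.
-/

open Matrix Topology Filter
open scoped Matrix.Norms.Elementwise

namespace Vale.Agent.P011Z

namespace SP

variable {n : Type} [Fintype n] [DecidableEq n] {F : Type} [NontriviallyNormedField F]

theorem none_le : ‖(1 : Matrix n n F)‖ ≤ 1 := by
  refine (norm_le_iff zero_le_one).2 fun i j => ?_
  rw [one_apply]
  split_ifs <;> simp

variable [IsUltrametricDist F]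

omit [DecidableEq n] in
theorem nadd {a b : Matrix n n F} {c : ℝ} (ha : ‖a‖ ≤ c) (hb : ‖b‖ ≤ c) : ‖a + b‖ ≤ c := by
  have hc : 0 ≤ c := (norm_nonneg _).trans ha
  refine (norm_le_iff hc).2 fun i j => ?_
  exact (IsUltrametricDist.norm_add_le_max _ _).trans
    (max_le ((norm_le_iff hc).1 ha i j) ((norm_le_iff hc).1 hb i j))

omit [DecidableEq n] in
theorem nsub {a b : Matrix n n F} {c : ℝ} (ha : ‖a‖ ≤ c) (hb : ‖b‖ ≤ c) : ‖a - b‖ ≤ c := by
  rw [sub_eq_add_neg]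
  exact nadd ha (by rwa [norm_neg])

omit [DecidableEq n] in
theorem nmul {a b : Matrix n n F} {c d : ℝ} (ha : ‖a‖ ≤ c) (hb : ‖b‖ ≤ d) : ‖a * b‖ ≤ c * d := by
  have hc : 0 ≤ c := (norm_nonneg _).trans ha
  have hd : 0 ≤ d := (norm_nonneg _).trans hb
  refine (norm_le_iff (mul_nonneg hc hd)).2 fun i j => ?_
  rw [mul_apply]
  refine IsUltrametricDist.norm_sum_le_of_forall_le_of_nonneg (mul_nonneg hc hd) fun k _ => ?_
  rw [norm_mul]
  exact mul_le_mul ((norm_le_iff hc).1 ha i k) ((norm_le_iff hd).1 hb k j) (norm_nonneg _) hc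

omit [DecidableEq n] in
theorem nnat (m : ℕ) {a : Matrix n n F} {c : ℝ} (ha : ‖a‖ ≤ c) : ‖(m : F) • a‖ ≤ c := by
  rw [norm_smul]
  exact (mul_le_of_le_one_left (norm_nonneg _) (IsUltrametricDist.norm_natCast_le_one F m)).trans ha

theorem nle_one {g : Matrix n n F} (h : ‖g - 1‖ ≤ 1) : ‖g‖ ≤ 1 := by
  simpa using nadd h none_le

theorem pow_exp {g : Matrix n n F} {c : ℝ} (h : ‖g - 1‖ ≤ c) (h1 : c ≤ 1) (m : ℕ) :
    ‖g ^ m - 1 - (m : F) • (g - 1)‖ ≤ c ^ 2 := by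
  induction m with
  | zero => simpa using sq_nonneg c
  | succ m ih =>
    have e : g ^ (m + 1) - 1 - ((m + 1 : ℕ) : F) • (g - 1) =
        (g ^ m - 1 - (m : F) • (g - 1)) * g + (m : F) • ((g - 1) * (g - 1)) := by
      simp only [Nat.cast_succ, add_smul, one_smul, pow_succ, sub_mul, mul_sub, smul_sub,
        smul_mul_assoc, one_mul, mul_one]
      abel
    rw [e]
    refine nadd ?_ (nnat m ?_)
    · simpa using nmul ih (nle_one (h.trans h1))
    · rw [sq]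
      exact nmul h h

theorem pow_le {g : Matrix n n F} {c : ℝ} (h : ‖g - 1‖ ≤ c) (h1 : c ≤ 1) (m : ℕ) :
    ‖g ^ m - 1‖ ≤ c := by
  have hc : 0 ≤ c := (norm_nonneg _).trans h
  have h2 := nadd ((pow_exp h h1 m).trans (show c ^ 2 ≤ c by nlinarith)) (nnat m h)
  rwa [sub_add_cancel] at h2

theorem comm_exp {g : Matrix n n F} {c : ℝ} (h : ‖g - 1‖ ≤ c) (h1 : c ≤ 1) (Y : Matrix n n F)
    (m : ℕ) : ‖(g ^ m * Y - Y * g ^ m) - (m : F) • (g * Y - Y * g)‖ ≤ c * ‖g * Y - Y * g‖ := by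
  have hc : 0 ≤ c := (norm_nonneg _).trans h
  induction m with
  | zero => simpa using mul_nonneg hc (norm_nonneg _)
  | succ m ih =>
    have e : (g ^ (m + 1) * Y - Y * g ^ (m + 1)) - ((m + 1 : ℕ) : F) • (g * Y - Y * g) =
        ((g ^ m * Y - Y * g ^ m) - (m : F) • (g * Y - Y * g)) * g +
          (m : F) • ((g * Y - Y * g) * (g - 1)) + (g ^ m - 1) * (g * Y - Y * g) := by
      simp only [Nat.cast_succ, add_smul, one_smul, pow_succ, sub_mul, mul_sub, smul_sub,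
        smul_mul_assoc, one_mul, mul_one, mul_assoc]
      abel
    rw [e]
    refine nadd (nadd ?_ (nnat m ?_)) (nmul (pow_le h h1 m) le_rfl)
    · simpa using nmul ih (nle_one (h.trans h1))
    · rw [mul_comm]
      exact nmul le_rfl h

theorem pow_l {l : ℕ} {g : Matrix n n F} {c : ℝ} (h : ‖g - 1‖ ≤ c) (h1 : c ≤ ‖(l : F)‖) :
    ‖g ^ l - 1‖ ≤ ‖(l : F)‖ * c := by
  have hc : 0 ≤ c := (norm_nonneg _).trans h
  have hl := IsUltrametricDist.norm_natCast_le_one F l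
  have h2 := nadd ((pow_exp h (h1.trans hl) l).trans (show c ^ 2 ≤ ‖(l : F)‖ * c by nlinarith))
    (show ‖(l : F) • (g - 1)‖ ≤ ‖(l : F)‖ * c by
      rw [norm_smul]
      exact mul_le_mul_of_nonneg_left h (norm_nonneg _))
  rwa [sub_add_cancel] at h2

theorem pow_pow {l : ℕ} {g : Matrix n n F} {c : ℝ} (h : ‖g - 1‖ ≤ c) (h1 : c ≤ ‖(l : F)‖) (j : ℕ) :
    ‖g ^ l ^ j - 1‖ ≤ ‖(l : F)‖ ^ j * c := by
  have hc : 0 ≤ c := (norm_nonneg _).trans h
  have hl := IsUltrametricDist.norm_natCast_le_one F l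
  induction j with
  | zero => simpa using h
  | succ j ih =>
    rw [pow_succ, pow_mul, pow_succ', mul_assoc]
    exact pow_l ih ((mul_le_of_le_one_left hc (pow_le_one₀ (norm_nonneg _) hl)).trans h1)

theorem comm_pow {l : ℕ} {g : Matrix n n F} {c : ℝ} (h : ‖g - 1‖ ≤ c) (h1 : c < ‖(l : F)‖)
    (Y : Matrix n n F) (j : ℕ) :
    ‖(l : F)‖ ^ j * ‖g * Y - Y * g‖ ≤ ‖g ^ l ^ j * Y - Y * g ^ l ^ j‖ := by
  have hc : 0 ≤ c := (norm_nonneg _).trans h
  have hl := IsUltrametricDist.norm_natCast_le_one F l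
  induction j with
  | zero => simp
  | succ j ih =>
    have h2 : ‖g ^ l ^ j - 1‖ ≤ c :=
      (pow_pow h h1.le j).trans (mul_le_of_le_one_left hc (pow_le_one₀ (norm_nonneg _) hl))
    have h3 := comm_exp h2 (h1.le.trans hl) Y l
    rw [← pow_mul, ← pow_succ] at h3
    set D := g ^ l ^ j * Y - Y * g ^ l ^ j
    set D' := g ^ l ^ (j + 1) * Y - Y * g ^ l ^ (j + 1)
    have h4 : ‖(l : F) • D‖ ≤ max ‖D'‖ (c * ‖D‖) := by
      have h5 := nsub (le_max_left ‖D'‖ (c * ‖D‖)) (h3.trans (le_max_right ‖D'‖ _))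
      rwa [sub_sub_cancel] at h5
    rw [norm_smul] at h4
    have h5 : ‖(l : F)‖ * ‖D‖ ≤ ‖D'‖ := by
      rcases le_max_iff.1 h4 with h6 | h6
      · exact h6
      · have h7 : ‖D‖ = 0 := by
          by_contra h8
          have h9 : 0 < ‖D‖ := (norm_nonneg _).lt_of_ne' h8
          nlinarith
        rw [h7, mul_zero]
        exact norm_nonneg _
    rw [pow_succ', mul_assoc]
    exact (mul_le_mul_of_nonneg_left ih (norm_nonneg _)).trans h5

/-- The logarithm. -/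
theorem exists_lg [CompleteSpace F] {l : ℕ} (hl1 : ‖(l : F)‖ < 1) {g : Matrix n n F}
    (h : ‖g - 1‖ < ‖(l : F)‖) : ∃ X : Matrix n n F,
      (∀ j : ℕ, ‖g ^ l ^ j - 1 - (l : F) ^ j • X‖ ≤ (‖(l : F)‖ ^ j) ^ 2) ∧
      ∀ Y : Matrix n n F, X * Y = Y * X → g * Y = Y * g := by
  have : CompleteSpace (Matrix n n F) := inferInstanceAs (CompleteSpace (n → n → F))
  set r := ‖(l : F)‖ with hr
  have hr0 : 0 < r := (norm_nonneg _).trans_lt h
  have hl0 : (l : F) ≠ 0 := norm_pos_iff.1 hr0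
  let Z : ℕ → Matrix n n F := fun j => ((l : F) ^ j)⁻¹ • (g ^ l ^ j - 1)
  have h1 : ∀ j, ‖Z (j + 1) - Z j‖ ≤ r ^ j := by
    intro j
    have h2 := pow_pow h.le le_rfl j
    have h3 := pow_exp h2 (mul_le_one₀ (pow_le_one₀ hr0.le hl1.le) hr0.le hl1.le) l
    have e : Z (j + 1) - Z j =
        ((l : F) ^ (j + 1))⁻¹ • ((g ^ l ^ j) ^ l - 1 - (l : F) • (g ^ l ^ j - 1)) := by
      rw [smul_sub ((l : F) ^ (j + 1))⁻¹ _ ((l : F) • _), smul_smul, ← pow_mul, ← pow_succ]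
      have e2 : ((l : F) ^ (j + 1))⁻¹ * (l : F) = ((l : F) ^ j)⁻¹ := by
        field_simp
        ring
      rw [e2]
    rw [e, norm_smul, norm_inv, norm_pow, ← hr, inv_mul_le_iff₀ (pow_pos hr0 _)]
    refine h3.trans ?_
    have h4 : (r ^ j * r) ^ 2 = r ^ (j + 1) * r ^ j * r := by ring
    rw [h4]
    exact mul_le_of_le_one_right (by positivity) hl1.le
  have h2 : ∀ j k, ‖Z (j + k) - Z j‖ ≤ r ^ j := by
    intro j k
    induction k with
    | zero => simpa using pow_nonneg hr0.le j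
    | succ k ih =>
      have h3 := nadd ((h1 (j + k)).trans (pow_le_pow_of_le_one hr0.le hl1.le (Nat.le_add_right j k)))
        ih
      rwa [sub_add_sub_cancel] at h3
  have h3 : CauchySeq Z :=
    cauchySeq_of_le_geometric r 1 hl1 fun j => by
      rw [dist_eq_norm, norm_sub_rev, one_mul]
      exact h1 j
  obtain ⟨X, hX⟩ := cauchySeq_tendsto_of_complete h3
  have h4 : ∀ j, ‖X - Z j‖ ≤ r ^ j := fun j =>
    le_of_tendsto' (((hX.comp (tendsto_add_atTop_nat j)).sub_const (Z j)).norm) fun k => by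
      rw [Function.comp_apply, add_comm]
      exact h2 j k
  have h5 : ∀ j : ℕ, ‖g ^ l ^ j - 1 - (l : F) ^ j • X‖ ≤ (r ^ j) ^ 2 := by
    intro j
    have e : g ^ l ^ j - 1 - (l : F) ^ j • X = (l : F) ^ j • (Z j - X) := by
      rw [smul_sub, smul_inv_smul₀ (pow_ne_zero j hl0)]
    rw [e, norm_smul, norm_pow, norm_sub_rev, sq]
    exact mul_le_mul_of_nonneg_left (h4 j) (pow_nonneg hr0.le j)
  refine ⟨X, h5, fun Y hY => ?_⟩
  have h6 : ∀ j, ‖g * Y - Y * g‖ ≤ r ^ j * ‖Y‖ := by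
    intro j
    have h7 := comm_pow le_rfl h Y j
    have e : g ^ l ^ j * Y - Y * g ^ l ^ j =
        (g ^ l ^ j - 1 - (l : F) ^ j • X) * Y - Y * (g ^ l ^ j - 1 - (l : F) ^ j • X) := by
      simp only [sub_mul, mul_sub, smul_mul_assoc, mul_smul_comm, hY, one_mul, mul_one]
      abel
    rw [e] at h7
    have h8 := h7.trans (nsub (nmul (h5 j) (le_refl ‖Y‖))
      ((nmul (le_refl ‖Y‖) (h5 j)).trans (mul_comm _ _).le))
    rw [sq, mul_assoc] at h8
    exact le_of_mul_le_mul_left h8 (pow_pos hr0 j)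
  have h7 : Tendsto (fun j : ℕ => r ^ j * ‖Y‖) atTop (𝓝 (0 * ‖Y‖)) :=
    (tendsto_pow_atTop_nhds_zero_of_lt_one hr0.le hl1).mul_const _
  rw [zero_mul] at h7
  exact sub_eq_zero.1 (norm_le_zero_iff.1 (ge_of_tendsto' h7 h6))

end SP

end Vale.Agent.P011Z
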