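import Vale.Agent.P011Z.Open
import Vale.Agent.P011Z.Cong
import Vale.Agent.P011Z.SAP.Nm

/-!
The tangent space of a subgroup over an ultrametric field.
-/

open Matrix Topology Filter
open scoped Matrix.Norms.Elementwise

namespace Vale.Agent.P011Z

namespace SP

variable {n : Type} [Fintype n] [DecidableEq n] {S : Sys n} {F : Type}
  [NontriviallyNormedField F] [CharZero F] [IsUltrametricDist F]

/-- Families of vectors which are tangent to the subgroup to the second order. -/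
def Tg (K : Subgroup (S.mon F)) {E : Type} [NormedAddCommGroup E] (φ : E → Matrix n n F) : Prop :=
  ∃ C δ : ℝ, 0 ≤ C ∧ 0 < δ ∧ ∀ t : E, ‖t‖ ≤ δ → ‖φ t‖ ≤ C * ‖t‖ ∧
    ∃ h ∈ K, ‖(h : Matrix n n F) - 1 - φ t‖ ≤ C * ‖t‖ ^ 2

omit [IsUltrametricDist F] in
theorem Tg.zero (K : Subgroup (S.mon F)) {E : Type} [NormedAddCommGroup E] :
    Tg K fun _ : E => 0 :=
  ⟨0, 1, le_rfl, one_pos, fun t _ => ⟨by simp, 1, one_mem _, by simp⟩⟩

omit [CharZero F] in
theorem near {h X : Matrix n n F} {C r : ℝ} (hC : 0 ≤ C) (hr0 : 0 ≤ r) (hr : r ≤ 1)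
    (h1 : ‖X‖ ≤ C * r) (h2 : ‖h - 1 - X‖ ≤ C * r ^ 2) : ‖h - 1‖ ≤ C * r := by
  have h3 := nadd (h2.trans (mul_le_mul_of_nonneg_left (show r ^ 2 ≤ r by nlinarith) hC)) h1
  rwa [sub_add_cancel] at h3

theorem Tg.add {K : Subgroup (S.mon F)} {E : Type} [NormedAddCommGroup E]
    {φ ψ : E → Matrix n n F} (h1 : Tg K φ) (h2 : Tg K ψ) : Tg K fun t => φ t + ψ t := by
  obtain ⟨C, δ, hC, hδ, h1⟩ := h1
  obtain ⟨D, ε, hD, hε, h2⟩ := h2
  refine ⟨C + D + C * D, min (min δ ε) 1, by positivity, by positivity, fun t ht => ?_⟩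
  obtain ⟨ha, g, hg, hg'⟩ := h1 t (ht.trans ((min_le_left _ _).trans (min_le_left _ _)))
  obtain ⟨hb, h, hh, hh'⟩ := h2 t (ht.trans ((min_le_left _ _).trans (min_le_right _ _)))
  have ht1 : ‖t‖ ≤ 1 := ht.trans (min_le_right _ _)
  have h0 := norm_nonneg t
  have hCD := mul_nonneg hC hD
  refine ⟨nadd (ha.trans (by gcongr; linarith)) (hb.trans (by gcongr; linarith)),
    g * h, mul_mem hg hh, ?_⟩
  have e : ((g * h : S.mon F) : Matrix n n F) - 1 - (φ t + ψ t) =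
      ((g : Matrix n n F) - 1) * ((h : Matrix n n F) - 1) + ((g : Matrix n n F) - 1 - φ t) +
        ((h : Matrix n n F) - 1 - ψ t) := by
    rw [Submonoid.coe_mul]
    noncomm_ring
  rw [e]
  refine nadd (nadd ((nmul (near hC h0 ht1 ha hg') (near hD h0 ht1 hb hh')).trans ?_)
    (hg'.trans (by gcongr; linarith))) (hh'.trans (by gcongr; linarith))
  have e2 : C * ‖t‖ * (D * ‖t‖) = C * D * ‖t‖ ^ 2 := by ring
  rw [e2]
  gcongr
  linarith

omit [IsUltrametricDist F] in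
theorem Tg.comp {K : Subgroup (S.mon F)} {E E' : Type} [NormedAddCommGroup E]
    [NormedAddCommGroup E'] {φ : E → Matrix n n F} (h1 : Tg K φ) (f : E' → E) {D : ℝ}
    (hD : 0 < D) (hf : ∀ t, ‖f t‖ ≤ D * ‖t‖) : Tg K fun t => φ (f t) := by
  obtain ⟨C, δ, hC, hδ, h1⟩ := h1
  refine ⟨C * (D + D ^ 2), δ / D, by positivity, by positivity, fun t ht => ?_⟩
  have h2 : ‖f t‖ ≤ δ := (hf t).trans ((le_div_iff₀' hD).1 ht)
  obtain ⟨ha, g, hg, hg'⟩ := h1 _ h2
  have h0 := norm_nonneg t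
  refine ⟨ha.trans ?_, g, hg, hg'.trans ?_⟩
  · rw [mul_assoc]
    refine mul_le_mul_of_nonneg_left ((hf t).trans ?_) hC
    gcongr
    nlinarith
  · rw [mul_assoc]
    refine mul_le_mul_of_nonneg_left ?_ hC
    calc ‖f t‖ ^ 2 ≤ (D * ‖t‖) ^ 2 := by gcongr; exact hf t
      _ = D ^ 2 * ‖t‖ ^ 2 := by ring
      _ ≤ (D + D ^ 2) * ‖t‖ ^ 2 := by gcongr; linarith

theorem Tg.sum {K : Subgroup (S.mon F)} {E ι : Type} [NormedAddCommGroup E]
    {φ : ι → E → Matrix n n F} (h : ∀ i, Tg K (φ i)) (s : Finset ι) :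
    Tg K fun t => ∑ i ∈ s, φ i t := by
  classical
  induction s using Finset.induction_on with
  | empty => simpa using Tg.zero K
  | insert i s hi ih => simpa only [Finset.sum_insert hi] using (h i).add ih

/-- The tangent space of the subgroup. -/
def tan (K : Subgroup (S.mon F)) : Submodule F (Matrix n n F) where
  carrier := {X | Tg K fun t : F => t • X}
  zero_mem' := by simpa using Tg.zero K
  add_mem' := fun {X Y} hX hY => by simpa only [Set.mem_ofPred_eq, smul_add] using Tg.add hX hY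
  smul_mem' := fun c X hX => by
    have h := Tg.comp hX (fun t : F => t * c) (D := ‖c‖ + 1) (by positivity) fun t => by
      rw [norm_mul, mul_comm]
      gcongr
      linarith
    simpa only [Set.mem_ofPred_eq, smul_smul] using h

theorem mem_tan {K : Subgroup (S.mon F)} {X : Matrix n n F} :
    X ∈ tan K ↔ Tg K fun t : F => t • X := Iff.rfl

theorem tan_le [CompleteSpace F] (K : Subgroup (S.mon F)) : tan K ≤ S.lie F := by
  rintro X ⟨C, δ, hC, hδ, h⟩
  have h1 : ∀ t : F, ∃ g : S.mon F, ‖t‖ ≤ δ → ‖(g : Matrix n n F) - 1 - t • X‖ ≤ C * ‖t‖ ^ 2 := by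
    intro t
    by_cases ht : ‖t‖ ≤ δ
    · obtain ⟨-, g, -, hg⟩ := h t ht
      exact ⟨g, fun _ => hg⟩
    · exact ⟨1, fun h' => absurd h' ht⟩
  choose g hg using h1
  have h2 : Tendsto (fun t : F => ‖t‖) (𝓝[≠] 0) (𝓝 0) := by
    simpa using (continuous_norm.tendsto (0 : F)).mono_left nhdsWithin_le_nhds
  have h3 : Tendsto (fun t : F => t⁻¹ • ((g t : Matrix n n F) - 1)) (𝓝[≠] 0) (𝓝 X) := by
    refine tendsto_iff_norm_sub_tendsto_zero.2 (squeeze_zero' (g := fun t => C * ‖t‖)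
      (Eventually.of_forall fun _ => norm_nonneg _) ?_ (by simpa using h2.const_mul C))
    filter_upwards [h2.eventually (ge_mem_nhds hδ), self_mem_nhdsWithin] with t ht ht0
    have e : t⁻¹ • ((g t : Matrix n n F) - 1) - X = t⁻¹ • ((g t : Matrix n n F) - 1 - t • X) := by
      rw [smul_sub t⁻¹ _ (t • X), inv_smul_smul₀ ht0]
    rw [e, norm_smul, norm_inv, inv_mul_le_iff₀ (norm_pos_iff.2 ht0)]
    exact (hg t ht).trans (le_of_eq (by ring))
  have h4 : Tendsto (fun t : F => (g t : Matrix n n F) - 1) (𝓝[≠] 0) (𝓝 0) := by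
    have h5 := (show Tendsto (fun t : F => t) (𝓝[≠] 0) (𝓝 0) from nhdsWithin_le_nhds).smul h3
    rw [zero_smul] at h5
    refine h5.congr' ?_
    filter_upwards [self_mem_nhdsWithin] with t ht0
    rw [smul_inv_smul₀ ht0]
  have h5 := Sys.mem_lie_of_tendsto (S := S) (l := 𝓝[≠] (0 : F))
    (y := fun t => Matrix.of.symm ((g t : Matrix n n F) - 1)) (c := fun t => t⁻¹)
    (X := Matrix.of.symm X) (Eventually.of_forall fun t => by simp) (by exact h4) (by exact h3)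
  exact h5

theorem conj_mem_tan {K : Subgroup (S.mon F)} (x : S.mon F) {N : ℕ} (hN : N ≠ 0)
    (h : ∀ g ∈ K, x * g ^ N * x⁻¹ ∈ K) {X : Matrix n n F} (hX : X ∈ tan K) :
    (x : Matrix n n F) * X * ((x⁻¹ : S.mon F) : Matrix n n F) ∈ tan K := by
  have h1 : (N : F) • ((x : Matrix n n F) * X * ((x⁻¹ : S.mon F) : Matrix n n F)) ∈ tan K := by
    obtain ⟨C, δ, hC, hδ, hX⟩ := hX
    set a := ‖(x : Matrix n n F)‖
    set b := ‖((x⁻¹ : S.mon F) : Matrix n n F)‖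
    have ha : 0 ≤ a := norm_nonneg _
    have hb : 0 ≤ b := norm_nonneg _
    refine ⟨a * (C + C ^ 2) * b, min (min δ 1) (C + 1)⁻¹, by positivity, by positivity,
      fun t ht => ?_⟩
    obtain ⟨h2, g, hg, hg'⟩ := hX t (ht.trans ((min_le_left _ _).trans (min_le_left _ _)))
    have ht1 : ‖t‖ ≤ 1 := ht.trans ((min_le_left _ _).trans (min_le_right _ _))
    have h0 := norm_nonneg t
    have ht2 : C * ‖t‖ ≤ 1 := by
      have h3 : ‖t‖ ≤ (C + 1)⁻¹ := ht.trans (min_le_right _ _)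
      rw [← one_div, le_div_iff₀ (by positivity)] at h3
      nlinarith
    have e1 : t • (N : F) • ((x : Matrix n n F) * X * ((x⁻¹ : S.mon F) : Matrix n n F)) =
        (x : Matrix n n F) * ((N : F) • t • X) * ((x⁻¹ : S.mon F) : Matrix n n F) := by
      rw [smul_comm t, mul_smul_comm, mul_smul_comm, smul_mul_assoc, smul_mul_assoc]
    beta_reduce
    rw [e1]
    refine ⟨(nmul (nmul (le_refl a) (nnat N h2)) (le_refl b)).trans ?_, _, h g hg, ?_⟩
    · have e2 : a * (C * ‖t‖) * b = a * C * b * ‖t‖ := by ring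
      rw [e2]
      gcongr
      nlinarith
    · have e2 : ((x * g ^ N * x⁻¹ : S.mon F) : Matrix n n F) - 1 -
          (x : Matrix n n F) * ((N : F) • t • X) * ((x⁻¹ : S.mon F) : Matrix n n F) =
          (x : Matrix n n F) * (((g : Matrix n n F) ^ N - 1 - (N : F) • ((g : Matrix n n F) - 1)) +
            (N : F) • ((g : Matrix n n F) - 1 - t • X)) * ((x⁻¹ : S.mon F) : Matrix n n F) := by
        rw [smul_sub (N : F) _ (t • X), sub_add_sub_cancel, mul_sub, mul_sub, sub_mul, sub_mul,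
          mul_one, Sys.coe_mul_inv, Submonoid.coe_mul, Submonoid.coe_mul, SubmonoidClass.coe_pow]
      rw [e2]
      have h3 : (C * ‖t‖) ^ 2 ≤ (C + C ^ 2) * ‖t‖ ^ 2 := by
        rw [mul_pow]
        gcongr
        linarith
      have h4 : C * ‖t‖ ^ 2 ≤ (C + C ^ 2) * ‖t‖ ^ 2 := by
        gcongr
        nlinarith
      refine (nmul (nmul (le_refl a) (nadd ((pow_exp (near hC h0 ht1 h2 hg') ht2 N).trans h3)
        (nnat N (hg'.trans h4)))) (le_refl b)).trans (le_of_eq (by ring))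
  have h2 := (tan K).smul_mem (N : F)⁻¹ h1
  rwa [inv_smul_smul₀ (Nat.cast_ne_zero.2 hN)] at h2

theorem lg_mem_tan {K : Subgroup (S.mon F)} {l : ℕ} (hl1 : ‖(l : F)‖ < 1)
    (hd : ∀ u : F, ‖u‖ ≤ 1 → ∀ ε : ℝ, 0 < ε → ∃ m : ℕ, ‖(m : F) - u‖ ≤ ε) {g : S.mon F}
    (hg : g ∈ K) (h : ‖(g : Matrix n n F) - 1‖ < ‖(l : F)‖) {X : Matrix n n F}
    (hX : ∀ j : ℕ, ‖(g : Matrix n n F) ^ l ^ j - 1 - (l : F) ^ j • X‖ ≤ (‖(l : F)‖ ^ j) ^ 2) :
    X ∈ tan K := by
  set r := ‖(l : F)‖ with hr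
  have hr0 : 0 < r := (norm_nonneg _).trans_lt h
  have hl0 : (l : F) ≠ 0 := norm_pos_iff.1 hr0
  have hr2 : 1 ≤ (r⁻¹) ^ 2 := one_le_pow₀ ((one_le_inv₀ hr0).2 hl1.le)
  refine ⟨(‖X‖ + 1) * r⁻¹ ^ 2, 1, by positivity, one_pos, fun t ht => ⟨?_, ?_⟩⟩
  · rw [norm_smul, mul_comm]
    gcongr
    nlinarith [norm_nonneg X]
  rcases eq_or_ne t 0 with rfl | ht0
  · exact ⟨1, one_mem _, by simp⟩
  obtain ⟨j, hj1, hj2⟩ := exists_nat_pow_near_of_lt_one (norm_pos_iff.2 ht0) ht hr0 hl1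
  have hj : 0 < r ^ j := pow_pos hr0 j
  obtain ⟨m, hm⟩ := hd (((l : F) ^ j)⁻¹ * t) (by
    rw [norm_mul, norm_inv, norm_pow, ← hr, inv_mul_le_iff₀ hj, mul_one]
    exact hj2) (r ^ j) hj
  refine ⟨g ^ (l ^ j * m), pow_mem hg _, ?_⟩
  have e : ((g ^ (l ^ j * m) : S.mon F) : Matrix n n F) - 1 - t • X =
      (((g : Matrix n n F) ^ l ^ j) ^ m - 1 - (m : F) • ((g : Matrix n n F) ^ l ^ j - 1)) +
        (m : F) • ((g : Matrix n n F) ^ l ^ j - 1 - (l : F) ^ j • X) +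
        (l : F) ^ j • ((m : F) - ((l : F) ^ j)⁻¹ * t) • X := by
    rw [SubmonoidClass.coe_pow, pow_mul, smul_sub (m : F) _ ((l : F) ^ j • X), sub_add_sub_cancel,
      sub_smul, smul_sub, mul_smul, smul_inv_smul₀ (pow_ne_zero j hl0), smul_comm (m : F),
      sub_add_sub_cancel]
  rw [e]
  have h1 : ‖(g : Matrix n n F) ^ l ^ j - 1‖ ≤ r ^ j :=
    (pow_pow h.le le_rfl j).trans (mul_le_of_le_one_right hj.le hl1.le)
  have h2 : (r ^ j) ^ 2 ≤ (‖X‖ + 1) * (r ^ j) ^ 2 :=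
    le_mul_of_one_le_left (by positivity) (by linarith [norm_nonneg X])
  have h3 : ‖(l : F) ^ j • ((m : F) - ((l : F) ^ j)⁻¹ * t) • X‖ ≤ (‖X‖ + 1) * (r ^ j) ^ 2 := by
    rw [norm_smul, norm_smul, norm_pow, ← hr]
    calc r ^ j * (‖(m : F) - ((l : F) ^ j)⁻¹ * t‖ * ‖X‖) ≤ r ^ j * (r ^ j * (‖X‖ + 1)) := by
          gcongr
          linarith
      _ = _ := by ring
  refine (nadd (nadd ((pow_exp h1 (pow_le_one₀ hr0.le hl1.le) m).trans h2)
    (nnat m ((hX j).trans h2))) h3).trans ?_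
  rw [mul_assoc, ← mul_pow]
  gcongr
  rw [le_inv_mul_iff₀ hr0, ← pow_succ']
  exact hj1.le

theorem ninv {g : S.mon F} (h : ‖(g : Matrix n n F) - 1‖ < 1) :
    ‖((g⁻¹ : S.mon F) : Matrix n n F)‖ ≤ 1 := by
  by_contra hc
  push Not at hc
  set a := ((g⁻¹ : S.mon F) : Matrix n n F)
  have e : a = 1 - a * ((g : Matrix n n F) - 1) := by
    rw [mul_sub, Sys.coe_inv_mul, mul_one, sub_sub_cancel]
  have h1 := nsub (none_le.trans (le_max_left 1 (‖a‖ * ‖(g : Matrix n n F) - 1‖)))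
    ((nmul (le_refl ‖a‖) (le_refl ‖(g : Matrix n n F) - 1‖)).trans (le_max_right _ _))
  rw [← e] at h1
  rcases le_max_iff.1 h1 with h2 | h2
  · linarith
  · nlinarith

/-- A closed subgroup whose tangent space is everything is a neighbourhood of one. -/
theorem nhds_of_tan [CompleteSpace F] {K : Subgroup (S.mon F)} (hK : IsClosed (K : Set (S.mon F)))
    (h : S.lie F ≤ tan K) : ∀ᶠ g in 𝓝 (1 : S.mon F), g ∈ K := by
  let b := Module.finBasis F (S.lie F)
  have h1 : Tg K fun X : S.lie F => ∑ i, b.repr X i • (b i : Matrix n n F) := by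
    refine Tg.sum (fun i => ?_) _
    obtain ⟨D, hD, hD'⟩ := (LinearMap.toContinuousLinearMap (b.coord i)).bound
    exact Tg.comp (mem_tan.1 (h (b i).2)) (fun X : S.lie F => b.repr X i) hD hD'
  have h2 : ∀ X : S.lie F, ∑ i, b.repr X i • (b i : Matrix n n F) = X := fun X => by
    conv_rhs => rw [← b.sum_repr X]
    simp only [Submodule.coe_sum, Submodule.coe_smul]
  simp only [h2] at h1
  obtain ⟨C, δ, hC, hδ, h1⟩ := h1
  obtain ⟨D, hD, h3⟩ := Sys.exists_tangent (S := S) (F := F)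
  set η := min δ (2 * (C + D + 1))⁻¹ with hη
  have hη0 : 0 < η := by positivity
  have hη1 : (C + D + 1) * η ≤ 1 / 2 := by
    have h4 : η ≤ (2 * (C + D + 1))⁻¹ := min_le_right _ _
    rw [← one_div, le_div_iff₀ (by positivity)] at h4
    linarith
  have h4 : ∀ (g : S.mon F) (ρ : ℝ), ρ ≤ η → ‖(g : Matrix n n F) - 1‖ ≤ ρ →
      ∃ k ∈ K, ‖((g * k⁻¹ : S.mon F) : Matrix n n F) - 1‖ ≤ ρ / 2 := by
    intro g ρ hρ hg
    have hρ0 : 0 ≤ ρ := (norm_nonneg _).trans hg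
    have hρ1 : (C + D + 1) * ρ ≤ 1 / 2 := le_trans (by gcongr) hη1
    have hρ2 : ρ ≤ 1 / 2 := by nlinarith
    obtain ⟨X, hX, hX'⟩ := h3 (Matrix.of.symm ((g : Matrix n n F) - 1)) (by simp)
      (hg.trans (by linarith))
    have h5 : ‖(g : Matrix n n F) - 1 - Matrix.of X‖ ≤ D * ‖(g : Matrix n n F) - 1‖ ^ 2 := hX'
    have h6 : ‖(g : Matrix n n F) - 1 - Matrix.of X‖ ≤ ρ / 2 :=
      h5.trans ((show _ ≤ D * ρ ^ 2 by gcongr).trans (by nlinarith))
    have h7 : ‖Matrix.of X‖ ≤ ρ := by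
      have h8 := nsub hg (h6.trans (by linarith))
      rwa [sub_sub_cancel] at h8
    obtain ⟨-, k, hk, hk'⟩ := h1 ⟨Matrix.of X, hX⟩ (h7.trans (hρ.trans (min_le_left _ _)))
    have h8 : ‖(k : Matrix n n F) - 1 - Matrix.of X‖ ≤ C * ‖Matrix.of X‖ ^ 2 := hk'
    have h9 : ‖(k : Matrix n n F) - 1 - Matrix.of X‖ ≤ ρ / 2 :=
      h8.trans ((show _ ≤ C * ρ ^ 2 by gcongr).trans (by nlinarith))
    have h10 : ‖(k : Matrix n n F) - 1‖ ≤ ρ := by
      have h11 := nadd (h9.trans (by linarith)) h7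
      rwa [sub_add_cancel] at h11
    refine ⟨k, hk, ?_⟩
    have e : ((g * k⁻¹ : S.mon F) : Matrix n n F) - 1 =
        (((g : Matrix n n F) - 1 - Matrix.of X) - ((k : Matrix n n F) - 1 - Matrix.of X)) *
          ((k⁻¹ : S.mon F) : Matrix n n F) := by
      rw [sub_sub_sub_cancel_right, sub_sub_sub_cancel_right, sub_mul, Sys.coe_mul_inv,
        Submonoid.coe_mul]
    rw [e]
    simpa using nmul (nsub h6 h9) (ninv (h10.trans_lt (by linarith)))
  refine S.mem_nhds_one_iff.2 ⟨η, hη0, fun g hg => ?_⟩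
  have hg' : ‖(g : Matrix n n F) - 1‖ ≤ η := (norm_le_iff hη0.le).2 hg
  have h5 : ∀ j : ℕ, ∃ k ∈ K, ‖((g * k⁻¹ : S.mon F) : Matrix n n F) - 1‖ ≤ η * (1 / 2) ^ j := by
    intro j
    induction j with
    | zero => exact ⟨1, one_mem _, by simpa using hg'⟩
    | succ j ih =>
      obtain ⟨k, hk, hk'⟩ := ih
      obtain ⟨k', hk2, hk3⟩ := h4 _ _
        (mul_le_of_le_one_right hη0.le (pow_le_one₀ (by norm_num) (by norm_num))) hk'
      refine ⟨k' * k, mul_mem hk2 hk, ?_⟩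
      rw [_root_.mul_inv_rev, ← mul_assoc]
      exact hk3.trans (le_of_eq (by ring))
  choose k hk hk' using h5
  have h6 : Tendsto (fun j => g * (k j)⁻¹) atTop (𝓝 1) := by
    refine tendsto_subtype_rng.2 (tendsto_iff_norm_sub_tendsto_zero.2
      (squeeze_zero (fun _ => norm_nonneg _) hk' ?_))
    simpa using (tendsto_pow_atTop_nhds_zero_of_lt_one (r := (1 / 2 : ℝ)) (by norm_num)
      (by norm_num)).const_mul η
  have h7 := h6.inv.mul_const g
  rw [inv_one, one_mul] at h7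
  refine hK.mem_of_tendsto h7 (Eventually.of_forall fun j => ?_)
  simpa using hk j

end SP

end Vale.Agent.P011Z
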